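import Crest.Agent.N221.Hu.Log

/-! Row 221, block Br (helper93): the action of `End E` on multilinear forms. -/

set_option autoImplicit false
set_option linter.unusedSectionVars false
set_option linter.unusedVariables false

open Set Filter Topology Module Function
open scoped ContDiff

noncomputable section

namespace Crest.Agent.N221.Br

variable {E : Type} [NormedAddCommGroup E] [NormedSpace ℝ E] [FiniteDimensional ℝ E] {k : ℕ}

/-- `k`-linear forms -/
abbrev Mu (k : ℕ) (E : Type) [NormedAddCommGroup E] [NormedSpace ℝ E] :=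
  ContinuousMultilinearMap ℝ (fun _ : Fin k => E) ℝ

instance finMu : FiniteDimensional ℝ (Mu k E) :=
  Module.Finite.of_injective (ContinuousMultilinearMap.toMultilinearMapLinear (R' := ℝ))
    ContinuousMultilinearMap.toMultilinearMap_injective

/-- the derivation -/
def dv0 (X : E →L[ℝ] E) (φ : Mu k E) : Mu k E :=
  ∑ i, φ.compContinuousLinearMap (update (fun _ => ContinuousLinearMap.id ℝ E) i X)

lemma dv0_apply (X : E →L[ℝ] E) (φ : Mu k E) (v : Fin k → E) :
    dv0 X φ v = ∑ i, φ (update v i (X (v i))) := by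
  rw [dv0, sum_apply]
  refine Finset.sum_congr rfl fun i _ => ?_
  rw [ContinuousMultilinearMap.compContinuousLinearMap_apply]
  congr 1
  funext j
  by_cases h : j = i
  · subst h; simp
  · simp [update_of_ne h]

/-- the derivation as a bilinear map -/
def dv (k : ℕ) (E : Type) [NormedAddCommGroup E] [NormedSpace ℝ E] [FiniteDimensional ℝ E] :
    (E →L[ℝ] E) →L[ℝ] Mu k E →L[ℝ] Mu k E :=
  LinearMap.toContinuousLinearMap (E := E →L[ℝ] E) (F' := Mu k E →L[ℝ] Mu k E)
    ((LinearMap.toContinuousLinearMap (𝕜 := ℝ) (E := Mu k E) (F' := Mu k E)).toLinearMap ∘ₗ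
    LinearMap.mk₂ ℝ (dv0 (E := E) (k := k))
      (fun X Y φ => by ext v; simp [dv0_apply, Finset.sum_add_distrib])
      (fun c X φ => by ext v; simp [dv0_apply, Finset.mul_sum])
      (fun X φ ψ => by ext v; simp [dv0_apply, Finset.sum_add_distrib])
      (fun c X φ => by ext v; simp [dv0_apply, Finset.mul_sum]))

lemma dv_apply (X : E →L[ℝ] E) (φ : Mu k E) (v : Fin k → E) :
    dv k E X φ v = ∑ i, φ (update v i (X (v i))) := dv0_apply X φ v

/-- the pull back -/
def pb (k : ℕ) (L : E ≃L[ℝ] E) : Mu k E ≃L[ℝ] Mu k E :=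
  ContinuousLinearEquiv.continuousMultilinearMapCongrLeft ℝ fun _ => L

lemma pb_apply (L : E ≃L[ℝ] E) (φ : Mu k E) (v : Fin k → E) : pb k L φ v = φ fun i => L (v i) := rfl

lemma pb_eq (L : E ≃L[ℝ] E) (φ : Mu k E) :
    pb k L φ = φ.compContinuousLinearMap fun _ => (L : E →L[ℝ] E) := rfl

lemma pb_dv (L : E ≃L[ℝ] E) (X : E →L[ℝ] E) (φ : Mu k E) :
    pb k L (dv k E (L.conjContinuousAlgEquiv X) φ) = dv k E X (pb k L φ) := by
  ext v
  simp only [pb_apply, dv_apply]
  refine Finset.sum_congr rfl fun i _ => ?_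
  congr 1
  funext j
  by_cases h : j = i
  · subst h; simp
  · simp [update_of_ne h]

lemma dv_comm (X Y : E →L[ℝ] E) (φ : Mu k E) :
    dv k E (X * Y - Y * X) φ = dv k E Y (dv k E X φ) - dv k E X (dv k E Y φ) := by
  ext v
  simp only [sub_apply, dv_apply]
  rw [Finset.sum_comm (f := fun i j => φ (update (update v i (X (v i))) j (Y (update v i (X (v i)) j)))),
    ← Finset.sum_sub_distrib]
  refine Finset.sum_congr rfl fun i _ => ?_
  rw [← Finset.sum_sub_distrib, Finset.sum_eq_single i]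
  · simp [← ContinuousMultilinearMap.map_update_sub]
  · intro j _ h
    rw [update_of_ne h, update_of_ne h.symm, update_comm h, sub_self]
  · simp

lemma isLog_pb {L : E ≃L[ℝ] E} {D : E →L[ℝ] E} (h : Hm.IsLog L D) :
    Hm.IsLog (pb k L) (dv k E D) :=
  h.pull (ContinuousLinearMap.id ℝ _) (fun _ _ e => e) (fun _ _ => rfl) fun θ v => dv_apply D θ v

/-- the stabiliser of a space of forms -/
def stab (K : Submodule ℝ (Mu k E)) : Submodule ℝ (E →L[ℝ] E) where
  carrier := {X | ∀ φ ∈ K, dv k E X φ ∈ K}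
  add_mem' := fun h h' φ hφ => by simpa using K.add_mem (h φ hφ) (h' φ hφ)
  zero_mem' := fun φ _ => by simp
  smul_mem' := fun c X h φ hφ => by simpa using K.smul_mem c (h φ hφ)

lemma stab_lie (K : Submodule ℝ (Mu k E)) : Hu.IsLie (stab K) := fun X hX Y hY φ hφ => by
  rw [dv_comm]
  exact K.sub_mem (hY _ (hX φ hφ)) (hX _ (hY φ hφ))

lemma stab_eqv {K K' : Submodule ℝ (Mu k E)} {L : E ≃L[ℝ] E} (e : ∀ φ, φ ∈ K' ↔ pb k L φ ∈ K)
    (X : E →L[ℝ] E) : X ∈ stab K ↔ L.conjContinuousAlgEquiv X ∈ stab K' := by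
  refine ⟨fun h φ hφ => (e _).2 ?_, fun h φ hφ => ?_⟩
  · rw [pb_dv]; exact h _ ((e φ).1 hφ)
  · obtain ⟨ψ, rfl⟩ := (pb k L).surjective φ
    rw [← pb_dv]; exact (e _).1 (h _ ((e ψ).2 hφ))

lemma stab_log {K : Submodule ℝ (Mu k E)} {L : E ≃L[ℝ] E} (e : ∀ φ ∈ K, pb k L φ ∈ K)
    {D : E →L[ℝ] E} (h : Hm.IsLog L D) : D ∈ stab K := (isLog_pb h).inv e

/-- the character of a flag with one-dimensional quotient kills commutators -/
lemma char_comm {K₀ K₁ : Submodule ℝ (Mu k E)} {e : Fin k → E} {σ : Mu k E} (hσ : σ ∈ K₁)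
    (h0 : σ e ≠ 0) (hK : ∀ φ, φ ∈ K₀ ↔ φ ∈ K₁ ∧ φ e = 0) {X Y : E →L[ℝ] E}
    (hX : X ∈ stab K₀ ⊓ stab K₁) (hY : Y ∈ stab K₀ ⊓ stab K₁) :
    dv k E (X * Y - Y * X) σ e = 0 := by
  have key : ∀ Z ∈ stab K₀ ⊓ stab K₁, ∀ φ ∈ K₁, dv k E Z φ e * σ e = φ e * dv k E Z σ e := by
    intro Z hZ φ hφ
    have : σ e • φ - φ e • σ ∈ K₀ := (hK _).2 ⟨K₁.sub_mem (K₁.smul_mem _ hφ) (K₁.smul_mem _ hσ), by
      simp [mul_comm]⟩
    have := ((hK _).1 (hZ.1 _ this)).2
    simp only [map_sub, map_smul, sub_apply,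
      smul_apply, smul_eq_mul] at this
    linarith
  apply mul_right_cancel₀ h0
  rw [dv_comm, sub_apply, sub_mul, key Y hY _ (hX.2 σ hσ),
    key X hX _ (hY.2 σ hσ)]
  ring

/-- Cramer: the character is the trace -/
lemma sum_det_update {V : Type} [AddCommGroup V] [Module ℝ V] (b : Basis (Fin k) ℝ V)
    (ψ : V [⋀^Fin k]→ₗ[ℝ] ℝ) (N : V →ₗ[ℝ] V) :
    ∑ i, ψ (update b i (N (b i))) = LinearMap.trace ℝ V N * ψ b := by
  have h1 : ∀ i u, ψ (update b i u) = b.repr u i * ψ b := fun i u => by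
    conv_lhs => rw [ψ.eq_smul_basis_det b]
    rw [AlternatingMap.smul_apply, Basis.det_apply, Basis.toMatrix_update, Basis.toMatrix_self,
      ← Matrix.cramer_apply, Matrix.cramer_one]
    simp [mul_comm]
  rw [LinearMap.trace_eq_matrix_trace ℝ b, Matrix.trace, Finset.sum_mul]
  exact Finset.sum_congr rfl fun i _ => by rw [h1, Matrix.diag_apply, LinearMap.toMatrix_apply]

end Crest.Agent.N221.Br
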