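import Crest.Agent.N221.A1.Bas
import Crest.Agent.N221.Br.Alg

/-! Row 221, block Br (helper93): the bridge `brS : BrS` from G0 to the hull. -/

set_option autoImplicit false
set_option linter.unusedSectionVars false
set_option linter.unusedVariables false

open Set Filter Topology Module Function
open scoped ContDiff
open Crest.GeometryTopology.Submanifold

noncomputable section

namespace Crest.Agent.N221.Br

section sp
variable {E : Type} [NormedAddCommGroup E] [NormedSpace ℝ E] [FiniteDimensional ℝ E]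

/-- the Lie algebra of a bilinear form -/
def sp (B : E →L[ℝ] E →L[ℝ] ℝ) : Submodule ℝ (E →L[ℝ] E) where
  carrier := {X | ∀ v w, B (X v) w + B v (X w) = 0}
  add_mem' := fun {X Y} h h' v w => by
    have := h v w; have := h' v w
    simp only [add_apply, map_add]; linarith
  zero_mem' := fun v w => by simp
  smul_mem' := fun c X h v w => by
    simp only [smul_apply, map_smul, smul_eq_mul]; rw [← mul_add, h v w, mul_zero]

lemma sp_lie (B : E →L[ℝ] E →L[ℝ] ℝ) : Hu.IsLie (sp B) := fun X hX Y hY v w => by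
  have := hX (Y v) w; have := hY (X v) w; have := hX v (Y w); have := hY v (X w)
  simp only [sub_apply, mul_apply_eq_comp, map_sub]; linarith

lemma sp_eqv {B : E →L[ℝ] E →L[ℝ] ℝ} {L : E ≃L[ℝ] E} (e : ∀ v w, B (L v) (L w) = B v w)
    (X : E →L[ℝ] E) : X ∈ sp B ↔ L.conjContinuousAlgEquiv X ∈ sp B := by
  refine ⟨fun h v w => ?_, fun h v w => ?_⟩
  · obtain ⟨v, rfl⟩ := L.surjective v
    obtain ⟨w, rfl⟩ := L.surjective w
    simpa [e] using h v w
  · simpa [e] using h (L v) (L w)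

end sp

variable {m : ℕ} {P : PD m} {z : ZZ m}

/-- `dform (S true)` read on the stable graph -/
def ps (P : PD m) (z : ZZ m) : Euc m [⋀^Fin m]→ₗ[ℝ] ℝ :=
  (Matrix.detRowAlternating : (Fin m → ℝ) [⋀^Fin m]→ₗ[ℝ] ℝ).compLinearMap
    ((WithLp.linearEquiv 2 ℝ (Fin m → ℝ)).toLinearMap ∘ₗ
      (P.S false z - P.S true z : Euc m →L[ℝ] Euc m).toLinearMap)

lemma ps_apply (w : Fin m → Euc m) :
    ps P z w = Matrix.det (Matrix.of fun i j => (P.S false z (w i) - P.S true z (w i)) j) := rfl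

/-- the standard basis -/
def bs (m : ℕ) : Basis (Fin m) ℝ (Euc m) := (EuclideanSpace.basisFun (Fin m) ℝ).toBasis

lemma bs_apply (i : Fin m) : bs m i = EuclideanSpace.single i 1 := by simp [bs]

lemma dform_gbas : dform (P.S true z) (gbas (P.S false z)) = ps P z (bs m) := by
  simp only [ps_apply, bs_apply]; rfl

lemma ps_ne (h : P.Ok) (hz : z ∈ P.W) : ps P z (bs m) ≠ 0 := fun e => by
  have h1 : ps P z (fun i => -Ring.inverse (P.S true z - P.S false z) (bs m i)) = 1 := by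
    rw [ps_apply, ← Matrix.det_one (n := Fin m)]
    congr 1
    ext i j
    have := h.S_inv hz (bs m i)
    rw [Matrix.of_apply, map_neg, map_neg, neg_sub_neg, this, bs_apply, Matrix.one_apply]
    simp [eq_comm]
  rw [(ps P z).eq_smul_basis_det (bs m), e] at h1
  simp at h1

/-- the character is the trace on `E / E^u` -/
lemma dv_dform (h : P.Ok) (hz : z ∈ P.W) {σ : Fm m} (hσ : ∀ v, σ v = dform (P.S true z) v)
    (X : ZZ m →L[ℝ] ZZ m) : dv m (ZZ m) X σ (gbas (P.S false z)) =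
      Hu.tr ((1 - P.pi z) * X) * ps P z (bs m) := by
  let ι : Euc m →ₗ[ℝ] ZZ m := LinearMap.prod LinearMap.id (P.S false z).toLinearMap
  let q : ZZ m →ₗ[ℝ] Euc m := LinearMap.fst ℝ _ _ ∘ₗ ((1 - P.pi z) * X).toLinearMap
  have e1 : ∀ v, ι (q v) = X v - P.pi z (X v) := fun v =>
    Prod.ext rfl (PD.mem_E.1 (h.sub_pi hz (X v))).symm
  have e2 : ι ∘ₗ q = ((1 - P.pi z) * X).toLinearMap := LinearMap.ext e1
  rw [Hu.tr, ← e2, LinearMap.trace_comp_comm', ← sum_det_update, dv_apply]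
  refine Finset.sum_congr rfl fun i _ => ?_
  rw [hσ, ps_apply, dform]
  congr 1
  ext j l
  by_cases hj : j = i
  · subst hj
    have e3 : ι (bs m j) = gbas (P.S false z) j := by rw [bs_apply]; rfl
    have e4 := e1 (ι (bs m j))
    have e5 := PD.mem_E.1 (PD.pi_mem (P := P) (z := z) (X (ι (bs m j))))
    have a1 : q (ι (bs m j)) = (X (ι (bs m j)) - P.pi z (X (ι (bs m j)))).1 := rfl
    have a2 : P.S false z (q (ι (bs m j))) = (X (ι (bs m j)) - P.pi z (X (ι (bs m j)))).2 :=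
      congrArg Prod.snd e4
    simp only [Matrix.of_apply, update_self, LinearMap.comp_apply]
    rw [a2, a1, ← e3, Prod.snd_sub, Prod.fst_sub, map_sub, e5]
    rw [sub_sub_sub_cancel_right]
  · simp only [Matrix.of_apply, update_of_ne hj, bs_apply]; rfl

theorem brS : BrS := by
  rintro m P hP ⟨O, r, A, hO, hne, hW, hA, h1, h2, h3⟩
  let K : ZZ m → Submodule ℝ (Fm m × ℝ) := fun z => (A z).ker
  let K₁ : ZZ m → Submodule ℝ (Fm m) := fun z =>
    (K z).map (ContinuousLinearMap.fst ℝ (Fm m) ℝ).toLinearMap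
  let K₀ : ZZ m → Submodule ℝ (Fm m) := fun z =>
    (K z).comap (ContinuousLinearMap.inl ℝ (Fm m) ℝ).toLinearMap
  have m1 : ∀ z φ, φ ∈ K₁ z ↔ ∃ t, A z (φ, t) = 0 := fun z φ =>
    ⟨fun ⟨a, b, c⟩ => ⟨a.2, c ▸ b⟩, fun ⟨t, b⟩ => ⟨(φ, t), b, rfl⟩⟩
  have m0 : ∀ z φ, φ ∈ K₀ z ↔ A z (φ, 0) = 0 := fun z φ => Iff.rfl
  have cK : ∀ z ∈ O, SB.Cut ∞ K z := fun z hz => SB.Cut.ker (SB.Cn.of_on hA hO hz)
  obtain ⟨O₁, a1, a2, a3, a4⟩ := SB.Cut.shrink hO hne cK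
  obtain ⟨O₂, b1, b2, b3, b4⟩ := SB.Gen.shrink (F := K₁) a1 a2 fun z hz =>
    (a4 z hz).gen.map (SB.Cn.const _)
  obtain ⟨O₃, c1, c2, c3, c4⟩ := SB.Cut.shrink (F := K₀) b1 b2 fun z hz =>
    (a4 z (b3 hz)).cut.comap (SB.Cn.const _)
  let h : ZZ m → Submodule ℝ (ZZ m →L[ℝ] ZZ m) := fun z =>
    (stab (K₀ z) ⊓ stab (K₁ z)) ⊓ sp (omL m)
  have cs : ∀ {F : ZZ m → Submodule ℝ (Fm m)} {z}, SB.SmAt ∞ F z →
      SB.Cut ∞ (fun y => stab (F y)) z := fun hF =>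
    SB.Cut.trans hF.gen hF.cut (μ := fun _ => dv m (ZZ m)) (SB.Cn.const _)
      (Eventually.of_forall fun _ _ => Iff.rfl)
  obtain ⟨O₄, d1, d2⟩ := Hm.sm_of_cut (M := h) c1 c2 fun z hz =>
    ((cs (c4 z hz)).inf (cs (b4 z (c3 hz)))).inf (SB.SmAt.const _).cut
  have sub : O₄ ⊆ O := d1.sub.trans (c3.trans (b3.trans a3))
  have eqK : ∀ z ∈ O, ∀ T, P.R z T false → T z ∈ O → ∀ L : ZZ m ≃L[ℝ] ZZ m,
      HasFDerivAt T (L : ZZ m →L[ℝ] ZZ m) z → (∀ φ, φ ∈ K₀ (T z) ↔ pb m L φ ∈ K₀ z) ∧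
        (∀ φ, φ ∈ K₁ (T z) ↔ pb m L φ ∈ K₁ z) ∧ ∀ v w, omL m (L v) (L w) = omL m v w := by
    intro z hz T hR hT L hL
    obtain ⟨c, hc, e⟩ := h3 z hz T hR hT
    have e' := hP.sp z T false hR
    rw [hL.fderiv] at e e'
    refine ⟨fun φ => ?_, fun φ => ?_, fun v w => by simpa using e' v w⟩
    · rw [m0, m0, e, mul_zero, pb_eq]
    · rw [m1, m1, pb_eq]
      exact ⟨fun ⟨t, a⟩ => ⟨_, (e φ t).1 a⟩,
        fun ⟨t, a⟩ => ⟨t / c, (e φ _).2 (by rwa [mul_div_cancel₀ _ hc])⟩⟩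
  refine ⟨O₄, h, ⟨d1.opn, d1.ne, sub.trans hW⟩, d2, fun z hz X hX Y hY =>
    ⟨⟨stab_lie _ X hX.1.1 Y hY.1.1, stab_lie _ X hX.1.2 Y hY.1.2⟩, sp_lie _ X hX.2 Y hY.2⟩,
    fun z hz X hX v w => by simpa using hX.2 v w, fun z hz X hX Y hY => ?_,
    fun z hz T hR hT L hL X => ?_, fun z hz T hR hT L hL D hD => ?_⟩
  · obtain ⟨σ, t, s1, s2⟩ := h1 z (sub hz)
    obtain ⟨c, hc, e⟩ := h2 z (sub hz)
    have hz' := hW (sub hz)
    have := char_comm (K₀ := K₀ z) (e := gbas (P.S false z)) ((m1 z σ).2 ⟨t, s2⟩)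
      (by rw [s1, dform_gbas]; exact ps_ne hP hz') (fun φ => by
        rw [m0, m1]
        refine ⟨fun a => ⟨⟨0, a⟩, (mul_eq_zero.1 (e φ 0 a).symm).resolve_left hc⟩,
          fun ⟨⟨t, a⟩, b⟩ => ?_⟩
        have := e φ t a
        rwa [this, b, mul_zero] at a) hX.1 hY.1
    rw [dv_dform hP hz' s1, mul_eq_zero, or_iff_left (ps_ne hP hz'), sub_mul, one_mul, Hu.tr_sub,
      Hu.tr_sub, Hu.tr_comm X Y, sub_self, zero_sub, neg_eq_zero] at this
    exact this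
  · obtain ⟨e0, e1, e2⟩ := eqK z (sub hz) T hR (sub hT) L hL
    exact and_congr (and_congr (stab_eqv e0 X) (stab_eqv e1 X)) (sp_eqv e2 X)
  · obtain ⟨e0, e1, e2⟩ := eqK z (sub hz) T hR (by rw [hT]; exact sub hz) L hL
    rw [hT] at e0 e1
    exact ⟨⟨stab_log (fun φ => (e0 φ).1) hD, stab_log (fun φ => (e1 φ).1) hD⟩, hD.form _ e2⟩

end Crest.Agent.N221.Br
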